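import Vale.Agent.Lib.P254U.SY.Defs

/-!
P254U/AS/Comp: comparison with a symmetric body.
`wᵀ covM(K) w ≤ (1/|K|) ∫_K ⟨w,x⟩^2` (variance at most second moment; `KLS_covM_form`, `∫ (f - m)^2 ≤ ∫ f^2` for the
mean `m`), `∫_K ⟨w,x⟩^2 ≤ ∫_{lam L} ⟨w,x⟩^2 = lam^(n+2) ∫_L ⟨w,x⟩^2 = lam^(n+2) |L| wᵀ covM(L) w`
(`covM_form_sym`, ZP/Bath.lean; `Measure.setIntegral_comp_smul`, see EllK_scale in ZP/EllK.lean).  So
`covM K ≤ κ covM L` with `κ = lam^(n+2) |L| / |K|`, hence `det covM K ≤ κ^n det covM L`: e.g. by `det_mul_det_le`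
(LM/AMGM.lean) with `S = covM K`, `B = (covM L)⁻¹`: `tr(B S) ≤ κ n`, because `covM L = T Tᵀ` and
`tr(T⁻ᵀ T⁻¹ S) = ∑_i w_iᵀ S w_i ≤ κ ∑_i w_iᵀ (covM L) w_i = κ n` for the rows `w_i` of `T⁻¹`.
`Rat K = (n+1) ((n+1)(n+2))^n det covM K / (n! |K|)^2`, `|L| ≤ |K|`.
-/

open MeasureTheory Set
open scoped Pointwise

namespace Vale.Agent.P254U

variable {n : ℕ}

private theorem ASc_var {K : Set (Fin n → ℝ)} (hK : ConvBody n K) (w : Fin n → ℝ) :
    ∫ x in K, (∑ i, w i * (x i - cen K i)) ^ 2 ≤ ∫ x in K, (∑ i, w i * x i) ^ 2 := by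
  have hV := convBody_vol_pos hK
  have h := KLS_int_sq hK.compact w 1 (∑ i, w i * cen K i)
  have e1 : (fun x : Fin n → ℝ => (1 * (∑ i, w i * x i) - ∑ i, w i * cen K i) ^ 2) =
      fun x => (∑ i, w i * (x i - cen K i)) ^ 2 := by
    funext x
    rw [one_mul, ← Finset.sum_sub_distrib]
    congr 1
    exact Finset.sum_congr rfl fun i _ => by ring
  have e2 : ∫ x in K, ∑ i, w i * x i = (∑ i, w i * cen K i) * (volume K).toReal := by
    rw [integral_finsetSum _ fun i _ =>
      (show Continuous fun x : Fin n → ℝ => w i * x i by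
        fun_prop).continuousOn.integrableOn_compact hK.compact, Finset.sum_mul]
    refine Finset.sum_congr rfl fun i _ => ?_
    rw [integral_const_mul]
    have hc : ∫ x in K, x i = cen K i * (volume K).toReal := by
      unfold cen
      field_simp
    rw [hc]
    ring
  rw [e1, e2] at h
  rw [h]
  nlinarith [mul_nonneg (sq_nonneg (∑ i, w i * cen K i)) hV.le]

private theorem ASc_scale (L : Set (Fin n → ℝ)) (w : Fin n → ℝ) {lam : ℝ} (hl0 : 0 < lam) :
    ∫ x in lam • L, (∑ i, w i * x i) ^ 2 = lam ^ (n + 2) * ∫ x in L, (∑ i, w i * x i) ^ 2 := by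
  have h1 := Measure.setIntegral_comp_smul (volume : Measure (Fin n → ℝ))
    (fun x : Fin n → ℝ => (∑ i, w i * x i) ^ 2) L hl0.ne'
  rw [Module.finrank_fin_fun, abs_of_pos (inv_pos.mpr (pow_pos hl0 n)), smul_eq_mul] at h1
  have h2 : ∫ x in L, (∑ i, w i * (lam • x) i) ^ 2 =
      lam ^ 2 * ∫ x in L, (∑ i, w i * x i) ^ 2 := by
    rw [← integral_const_mul]
    refine integral_congr_ae (Filter.Eventually.of_forall fun x => ?_)
    have e : ∑ i, w i * (lam • x) i = lam * ∑ i, w i * x i := by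
      rw [Finset.mul_sum]
      refine Finset.sum_congr rfl fun i _ => ?_
      rw [Pi.smul_apply, smul_eq_mul]
      ring
    show (∑ i, w i * (lam • x) i) ^ 2 = lam ^ 2 * (∑ i, w i * x i) ^ 2
    rw [e]
    ring
  rw [h2] at h1
  have h3 : lam ^ n ≠ 0 := (pow_pos hl0 n).ne'
  field_simp at h1
  rw [pow_add]
  linarith

open scoped MatrixOrder in
private theorem ASc_fact {B : Matrix (Fin n) (Fin n) ℝ} (hB : B.PosSemidef) :
    ∃ C : Matrix (Fin n) (Fin n) ℝ, B = C.conjTranspose * C := by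
  obtain ⟨C, hC⟩ := CStarAlgebra.nonneg_iff_eq_star_mul_self.mp hB.nonneg
  exact ⟨C, hC⟩

private theorem ASc_trace {B D : Matrix (Fin n) (Fin n) ℝ} (hB : B.PosSemidef)
    (hD : D.PosSemidef) : 0 ≤ (B * D).trace := by
  obtain ⟨C, rfl⟩ := ASc_fact hB
  have hM := hD.mul_mul_conjTranspose_same C
  have h2 : (C * D * C.conjTranspose).trace = (C.conjTranspose * C * D).trace := by
    rw [Matrix.trace_mul_cycle]
  rw [← h2]
  exact hM.trace_nonneg

private theorem ASc_prod (hn : 1 ≤ n) (z : Fin n → ℝ) (hz : ∀ i, 0 ≤ z i) :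
    ∏ i, z i ≤ ((∑ i, z i) / n) ^ n := by
  have hn' : (0 : ℝ) < n := by exact_mod_cast hn
  have hw : (∑ _i : Fin n, (1 : ℝ)) = n := by simp
  have h := Real.geom_mean_le_arith_mean Finset.univ (fun _ : Fin n => (1 : ℝ)) z
    (fun _ _ => zero_le_one) (by rw [hw]; exact hn') (fun i _ => hz i)
  simp only [Real.rpow_one, one_mul, hw] at h
  have hP : 0 ≤ ∏ i, z i := Finset.prod_nonneg fun i _ => hz i
  have h2 := pow_le_pow_left₀ (Real.rpow_nonneg hP _) h n
  rwa [← Real.rpow_natCast, ← Real.rpow_mul hP, inv_mul_cancel₀ hn'.ne', Real.rpow_one] at h2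

private theorem ASc_detdet (hn : 1 ≤ n) {S B : Matrix (Fin n) (Fin n) ℝ} (hS : S.PosSemidef)
    (hB : B.PosDef) : S.det * B.det ≤ ((B * S).trace / n) ^ n := by
  obtain ⟨C, rfl⟩ := ASc_fact hB.posSemidef
  have hM := hS.mul_mul_conjTranspose_same C
  have h1 : (C * S * C.conjTranspose).det = S.det * (C.conjTranspose * C).det := by
    rw [Matrix.det_mul, Matrix.det_mul, Matrix.det_mul]
    ring
  have h2 : (C * S * C.conjTranspose).trace = (C.conjTranspose * C * S).trace := by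
    rw [Matrix.trace_mul_cycle]
  rw [← h1, ← h2, hM.1.det_eq_prod_eigenvalues, hM.1.trace_eq_sum_eigenvalues]
  exact ASc_prod hn _ fun i => hM.eigenvalues_nonneg i

/-- `det S ≤ κ^n det T` if `κ T - S` is positive semidefinite -/
private theorem ASc_det (hn : 1 ≤ n) {S T : Matrix (Fin n) (Fin n) ℝ} (hS : S.PosSemidef)
    (hT : T.PosDef) {κ : ℝ} (hD : (κ • T - S).PosSemidef) : S.det ≤ κ ^ n * T.det := by
  have hn' : (0 : ℝ) < n := by exact_mod_cast hn
  have hTd : 0 < T.det := hT.det_pos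
  have hTu : IsUnit T.det := hTd.ne'.isUnit
  have hTi : T⁻¹.PosDef := hT.inv
  have h1 := ASc_detdet hn hS hTi
  have h2 := ASc_trace hTi.posSemidef hD
  have h0 := ASc_trace hTi.posSemidef hS
  rw [Matrix.mul_sub, Matrix.mul_smul, Matrix.nonsing_inv_mul T hTu, Matrix.trace_sub,
    Matrix.trace_smul, Matrix.trace_one, Fintype.card_fin, smul_eq_mul] at h2
  have h3 : (T⁻¹ * S).trace / n ≤ κ := by
    rw [div_le_iff₀ hn']
    linarith
  have h4 : ((T⁻¹ * S).trace / n) ^ n ≤ κ ^ n := pow_le_pow_left₀ (div_nonneg h0 hn'.le) h3 n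
  have h5 := h1.trans h4
  rw [Matrix.det_nonsing_inv, Ring.inverse_eq_inv', ← div_eq_mul_inv, div_le_iff₀ hTd] at h5
  exact h5

theorem rat_compare (hn : 1 ≤ n) {K L : Set (Fin n → ℝ)} (hK : ConvBody n K) (hL : ConvBody n L)
    (hs : ∀ x ∈ L, -x ∈ L) {lam : ℝ} (h1 : 1 ≤ lam) (hLK : L ⊆ K) (hKL : K ⊆ lam • L) :
    Rat K ≤ lam ^ (n * (n + 2)) * Rat L := by
  have hl0 : 0 < lam := lt_of_lt_of_le one_pos h1
  have hVK := convBody_vol_pos hK
  have hVL := convBody_vol_pos hL
  have hVV : (volume L).toReal ≤ (volume K).toReal :=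
    ENNReal.toReal_mono hK.compact.measure_lt_top.ne (measure_mono hLK)
  have hform : ∀ w : Fin n → ℝ, w ⬝ᵥ (covM K).mulVec w ≤
      lam ^ (n + 2) * (w ⬝ᵥ (covM L).mulVec w) := by
    intro w
    rw [KLS_covM_form hK, covM_form_sym hL hs]
    have hlK : IsCompact (lam • L) := hL.compact.smul lam
    have a1 := ASc_var hK w
    have a2 : ∫ x in K, (∑ i, w i * x i) ^ 2 ≤ ∫ x in lam • L, (∑ i, w i * x i) ^ 2 := by
      refine setIntegral_mono_set
        (((KLS_cont w).pow 2).continuousOn.integrableOn_compact hlK)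
        (Filter.Eventually.of_forall fun x => sq_nonneg _) ?_
      exact Filter.Eventually.of_forall hKL
    rw [ASc_scale L w hl0] at a2
    have a3 := a1.trans a2
    have a4 : 0 ≤ lam ^ (n + 2) * ∫ x in L, (∑ i, w i * x i) ^ 2 :=
      mul_nonneg (pow_nonneg hl0.le _) (integral_nonneg fun x => sq_nonneg _)
    calc (∫ x in K, (∑ i, w i * (x i - cen K i)) ^ 2) / (volume K).toReal
        ≤ (lam ^ (n + 2) * ∫ x in L, (∑ i, w i * x i) ^ 2) / (volume K).toReal :=
          div_le_div_of_nonneg_right a3 hVK.le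
      _ ≤ (lam ^ (n + 2) * ∫ x in L, (∑ i, w i * x i) ^ 2) / (volume L).toReal :=
          div_le_div_of_nonneg_left a4 hVL hVV
      _ = _ := by rw [mul_div_assoc]
  have hPK := covM_posDef hK
  have hPL := covM_posDef hL
  have hD : (lam ^ (n + 2) • covM L - covM K).PosSemidef := by
    refine Matrix.PosSemidef.of_dotProduct_mulVec_nonneg ?_ ?_
    · have e1 : (covM L).conjTranspose = covM L := hPL.1
      have e2 : (covM K).conjTranspose = covM K := hPK.1
      show (lam ^ (n + 2) • covM L - covM K).conjTranspose = _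
      rw [Matrix.conjTranspose_sub, Matrix.conjTranspose_smul, e1, e2, star_trivial]
    · intro ξ
      have hst : star ξ = ξ := by
        funext i
        simp
      rw [hst, Matrix.sub_mulVec, Matrix.smul_mulVec, dotProduct_sub, dotProduct_smul, smul_eq_mul]
      linarith [hform ξ]
  have hdet := ASc_det hn hPK.posSemidef hPL hD
  rw [← pow_mul, mul_comm (n + 2) n] at hdet
  have hf : (0 : ℝ) < (n.factorial : ℝ) := by positivity
  have hSM : ∀ A : Set (Fin n → ℝ), Rat A =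
      ((n : ℝ) + 1) * ((((n : ℝ) + 1) * ((n : ℝ) + 2)) ^ n * (covM A).det) /
        ((n.factorial : ℝ) * (volume A).toReal) ^ 2 := by
    intro A
    have e1 : SM A = (((n : ℝ) + 1) * ((n : ℝ) + 2)) • covM A := by
      ext i j
      rfl
    have e2 : (SM A).det = (((n : ℝ) + 1) * ((n : ℝ) + 2)) ^ n * (covM A).det := by
      rw [e1, Matrix.det_smul, Fintype.card_fin]
    unfold Rat
    rw [e2]
  rw [hSM K, hSM L]
  set c : ℝ := (((n : ℝ) + 1) * ((n : ℝ) + 2)) ^ n with hc
  have hc0 : 0 < c := by positivity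
  have hdL : 0 < (covM L).det := hPL.det_pos
  have hl : 0 < lam ^ (n * (n + 2)) := pow_pos hl0 _
  calc ((n : ℝ) + 1) * (c * (covM K).det) / ((n.factorial : ℝ) * (volume K).toReal) ^ 2
      ≤ ((n : ℝ) + 1) * (c * (lam ^ (n * (n + 2)) * (covM L).det)) /
          ((n.factorial : ℝ) * (volume K).toReal) ^ 2 := by
        refine div_le_div_of_nonneg_right ?_ (by positivity)
        exact mul_le_mul_of_nonneg_left (mul_le_mul_of_nonneg_left hdet hc0.le) (by positivity)
    _ ≤ ((n : ℝ) + 1) * (c * (lam ^ (n * (n + 2)) * (covM L).det)) /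
          ((n.factorial : ℝ) * (volume L).toReal) ^ 2 := by
        refine div_le_div_of_nonneg_left (by positivity) (by positivity) ?_
        exact pow_le_pow_left₀ (by positivity) (mul_le_mul_of_nonneg_left hVV hf.le) 2
    _ = _ := by ring

end Vale.Agent.P254U
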