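import Vale.Agent.Lib.P254U.AS.Quant
import Vale.Agent.Lib.P254U.AS.Comp

/-!
P254U/AS/Main: bodies in `ℝ^3` with Minkowski asymmetry at most `1007/1000`.
Translate `c` to `0` (`Rat_affine`, `AffineEquiv.constVSub` or `AffineEquiv.vaddConst`); `K₀ = K - c`,
`μ = 1000/1007`: `-μ x ∈ K₀` for `x ∈ K₀`, so `0 ∈ K₀` (convex combination of `x` and `-μ x`) and `μ x ∈ K₀`.
`L = K₀ ∩ (-K₀)` is compact, convex, symmetric, contains `μ K₀` (so has interior points), `L ⊆ K₀ ⊆ μ⁻¹ L`.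
`rat_compare` with `lam = 1007/1000`, `n = 3`: `Rat K ≤ (1007/1000)^15 * Rat L`, `rat_sym3_q`, and
`(1007/1000)^15 * 9/10 < 1` (`norm_num`).
-/

open MeasureTheory Set

namespace Vale.Agent.P254U

open scoped Pointwise

private theorem ASMain_zero {K : Set (Fin 3 → ℝ)} (hK : ConvBody 3 K)
    (h : ∀ y ∈ K, -((1000 / 1007 : ℝ) • y) ∈ K) : Rat K < 1 := by
  obtain ⟨x₀, hx₀⟩ := hK.interior_nonempty.mono interior_subset
  have h0 : (0 : Fin 3 → ℝ) ∈ K := by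
    have h1 := hK.convex hx₀ (h x₀ hx₀) (a := 1000 / 2007) (b := 1007 / 2007) (by norm_num)
      (by norm_num) (by norm_num)
    have h2 : (1000 / 2007 : ℝ) • x₀ + (1007 / 2007 : ℝ) • (-((1000 / 1007 : ℝ) • x₀)) = 0 := by
      rw [smul_neg, smul_smul, ← sub_eq_add_neg, ← sub_smul]
      norm_num
    rwa [h2] at h1
  have hμ : ∀ x ∈ K, (1000 / 1007 : ℝ) • x ∈ K := fun x hx =>
    hK.convex.smul_mem_of_zero_mem h0 hx ⟨by norm_num, by norm_num⟩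
  have hsub : (1000 / 1007 : ℝ) • K ⊆ K ∩ -K := by
    rintro _ ⟨x, hx, rfl⟩
    exact ⟨hμ x hx, h x hx⟩
  have hL : ConvBody 3 (K ∩ -K) := by
    refine ⟨hK.compact.inter_right hK.compact.neg.isClosed, hK.convex.inter hK.convex.neg, ?_⟩
    refine Set.Nonempty.mono (interior_mono hsub) ?_
    rw [interior_smul₀ (by norm_num : (1000 / 1007 : ℝ) ≠ 0)]
    exact hK.interior_nonempty.smul_set
  have hs : ∀ x ∈ K ∩ -K, -x ∈ K ∩ -K := fun x hx => ⟨hx.2, by simpa using hx.1⟩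
  have hKL : K ⊆ (1007 / 1000 : ℝ) • (K ∩ -K) := by
    intro x hx
    refine ⟨(1000 / 1007 : ℝ) • x, hsub ⟨x, hx, rfl⟩, ?_⟩
    simp only [smul_smul]
    norm_num
  have h1 := rat_compare (n := 3) (by norm_num) hK hL hs (lam := 1007 / 1000) (by norm_num)
    inter_subset_left hKL
  have h2 := rat_sym3_q hL hs
  have h3 : (1007 / 1000 : ℝ) ^ (3 * (3 + 2)) * Rat (K ∩ -K) ≤
      (1007 / 1000 : ℝ) ^ (3 * (3 + 2)) * (9 / 10) :=
    mul_le_mul_of_nonneg_left h2.le (by positivity)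
  have h4 : (1007 / 1000 : ℝ) ^ (3 * (3 + 2)) * (9 / 10) < 1 := by norm_num
  exact (h1.trans h3).trans_lt h4

theorem rat_asym3 {K : Set (Fin 3 → ℝ)} (hK : ConvBody 3 K) (c : Fin 3 → ℝ)
    (h : ∀ x ∈ K, c - (1000 / 1007 : ℝ) • (x - c) ∈ K) : Rat K < 1 := by
  obtain ⟨h1, h2⟩ := Rat_affine (n := 3) (by norm_num) hK (AffineEquiv.constVSub ℝ c)
  rw [← h2]
  refine ASMain_zero h1 ?_
  rintro _ ⟨x, hx, rfl⟩
  refine ⟨c - (1000 / 1007 : ℝ) • (x - c), h x hx, ?_⟩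
  show c - (c - (1000 / 1007 : ℝ) • (x - c)) = -((1000 / 1007 : ℝ) • (c - x))
  rw [sub_sub_cancel, ← smul_neg, neg_sub]

end Vale.Agent.P254U
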