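import Vale.Agent.Lib.P254U.SY.Main

/-!
P254U/AS/Quant: a quantitative form of `rat_sym3`: `Rat K < 9/10`.
Copy SY/Num.lean and SY/Main.lean with the constant `81/20000 = (9/10) (9/2000)` instead of `9/2000`.
With `m0 = 1 - b + b^2/3`, `m2 = 1/3 - b/2 + b^2/5` the quotient `m2^3 / ((9/2000) a^2 m0^5)`,
`a = max(π, 2π/(3 m0))`, is at most `0.8912` (near `b = 0.25`).  Split at `b = 0.375`:
case `b ≤ 0.375`: `a^2 ≥ π^2 > 9.869`, `(81/20000) * 9.869 > 0.03996`, and `m2^3 < 0.03996 m0^5` on `[0, 0.375]`;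
case `b ≥ 0.375`: `(81/20000) a^2 m0^5 ≥ (81/20000)(4 π^2/9) m0^3 > 0.01776 m0^3` and `m2 ≤ 0.2600 m0`
(`0.26^3 = 0.017576`; `0.26 m0 - m2 = -11/150 + 0.24 b - (17/150) b^2 ≥ 0` on `[0.375, 1]`).
-/

open MeasureTheory Set

namespace Vale.Agent.P254U

/-- Bernstein form on `[0, 3/8]` -/
private theorem Quant_bern (b : ℝ) : 3996 / 100000 * (1 - b + b ^ 2 / 3) ^ 5 -
    (1 / 3 - b / 2 + b ^ 2 / 5) ^ 3 =
        (264811577344 / 4982259375 : ℝ) * b ^ 0 * (3 / 8 - b) ^ 10 +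
        (304489693184 / 996451875 : ℝ) * b ^ 1 * (3 / 8 - b) ^ 9 +
        (82013323264 / 110716875 : ℝ) * b ^ 2 * (3 / 8 - b) ^ 8 +
        (64865173504 / 66430125 : ℝ) * b ^ 3 * (3 / 8 - b) ^ 7 +
        (253712826368 / 332150625 : ℝ) * b ^ 4 * (3 / 8 - b) ^ 6 +
        (221565054976 / 553584375 : ℝ) * b ^ 5 * (3 / 8 - b) ^ 5 +
        (72285364736 / 332150625 : ℝ) * b ^ 6 * (3 / 8 - b) ^ 4 +
        (10631143552 / 66430125 : ℝ) * b ^ 7 * (3 / 8 - b) ^ 3 +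
        (10219777432 / 110716875 : ℝ) * b ^ 8 * (3 / 8 - b) ^ 2 +
        (29049709289 / 996451875 : ℝ) * b ^ 9 * (3 / 8 - b) ^ 1 +
        (149865043439 / 39858075000 : ℝ) * b ^ 10 * (3 / 8 - b) ^ 0 := by
  ring

private theorem Quant_small {b : ℝ} (hb0 : 0 ≤ b) (hb : b ≤ 3 / 8) :
    (1 / 3 - b / 2 + b ^ 2 / 5) ^ 3 ≤ 3996 / 100000 * (1 - b + b ^ 2 / 3) ^ 5 := by
  have h := Quant_bern b
  have hb' : 0 ≤ 3 / 8 - b := by linarith
  have h2 : 0 ≤ 3996 / 100000 * (1 - b + b ^ 2 / 3) ^ 5 - (1 / 3 - b / 2 + b ^ 2 / 5) ^ 3 := by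
    rw [h]
    positivity
  linarith

theorem sy_num_q {a b : ℝ} (ha : Real.pi ≤ a) (hb0 : 0 ≤ b) (hb1 : b ≤ 1)
    (hI : 2 * Real.pi / 3 ≤ a * (1 - b + b ^ 2 / 3)) :
    (a * (1 / 3 - b / 2 + b ^ 2 / 5)) ^ 3 < 81 / 20000 * (a * (1 - b + b ^ 2 / 3)) ^ 5 := by
  have hpi : (3.1415 : ℝ) < Real.pi := Real.pi_gt_d4
  have ha0 : 0 < a := by linarith
  have hm0 : 0 < 1 - b + b ^ 2 / 3 := by nlinarith
  have hm2 : 0 < 1 / 3 - b / 2 + b ^ 2 / 5 := by nlinarith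
  have key : (1 / 3 - b / 2 + b ^ 2 / 5) ^ 3 < 81 / 20000 * a ^ 2 * (1 - b + b ^ 2 / 3) ^ 5 := by
    rcases le_total b (3 / 8) with h | h
    · have h1 := Quant_small hb0 h
      have h2 : (9.869 : ℝ) < a ^ 2 := by nlinarith
      have h3 : 0 < (1 - b + b ^ 2 / 3) ^ 5 := by positivity
      have h4 : (3996 / 100000 : ℝ) < 81 / 20000 * a ^ 2 := by linarith
      exact h1.trans_lt (mul_lt_mul_of_pos_right h4 h3)
    · have h1 : 1 / 3 - b / 2 + b ^ 2 / 5 ≤ 26 / 100 * (1 - b + b ^ 2 / 3) := by nlinarith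
      have h2 : (1 / 3 - b / 2 + b ^ 2 / 5) ^ 3 ≤ (26 / 100 * (1 - b + b ^ 2 / 3)) ^ 3 :=
        pow_le_pow_left₀ hm2.le h1 3
      have h3 : (4.386 : ℝ) < (a * (1 - b + b ^ 2 / 3)) ^ 2 := by nlinarith
      have h4 : 0 < (1 - b + b ^ 2 / 3) ^ 3 := by positivity
      have h5 : (26 / 100 * (1 - b + b ^ 2 / 3)) ^ 3 = 17576 / 1000000 * (1 - b + b ^ 2 / 3) ^ 3 := by
        ring
      have h6 : 81 / 20000 * a ^ 2 * (1 - b + b ^ 2 / 3) ^ 5
          = 81 / 20000 * (a * (1 - b + b ^ 2 / 3)) ^ 2 * (1 - b + b ^ 2 / 3) ^ 3 := by ring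
      have h7 : (17576 / 1000000 : ℝ) < 81 / 20000 * (a * (1 - b + b ^ 2 / 3)) ^ 2 := by linarith
      rw [h6]
      rw [h5] at h2
      exact h2.trans_lt (mul_lt_mul_of_pos_right h7 h4)
  have e1 : (a * (1 / 3 - b / 2 + b ^ 2 / 5)) ^ 3 = a ^ 3 * (1 / 3 - b / 2 + b ^ 2 / 5) ^ 3 := by
    ring
  have e2 : 81 / 20000 * (a * (1 - b + b ^ 2 / 3)) ^ 5
      = a ^ 3 * (81 / 20000 * a ^ 2 * (1 - b + b ^ 2 / 3) ^ 5) := by ring
  rw [e1, e2]
  exact mul_lt_mul_of_pos_left key (by positivity)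

private theorem Quant_final {V I0 I2 s R : ℝ} (hI0 : 0 < I0) (hV : V = 2 * I0)
    (hs : s * I0 = I2) (h : I2 ^ 3 < 81 / 20000 * I0 ^ 5) (hR : s ^ 3 / V ^ 2 = R * (9 / 8000)) :
    R < 9 / 10 := by
  have h1 : s ^ 3 * I0 ^ 3 < 81 / 20000 * I0 ^ 2 * I0 ^ 3 := by
    rw [← mul_pow, hs]
    calc I2 ^ 3 < 81 / 20000 * I0 ^ 5 := h
      _ = 81 / 20000 * I0 ^ 2 * I0 ^ 3 := by ring
  have h2 : s ^ 3 < 81 / 20000 * I0 ^ 2 := lt_of_mul_lt_mul_right h1 (by positivity)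
  have h3 : s ^ 3 = R * (9 / 8000) * V ^ 2 := by
    rw [← hR, div_mul_cancel₀]
    rw [hV]
    positivity
  rw [h3, hV] at h2
  have h4 : 0 < I0 ^ 2 := by positivity
  nlinarith

theorem rat_sym3_q {K : Set (Fin 3 → ℝ)} (hK : ConvBody 3 K) (hs : ∀ x ∈ K, -x ∈ K) :
    Rat K < 9 / 10 := by
  obtain ⟨L, hL, hLs, hRat, hB, h1, s, hs0, hcov⟩ := sy_pos (n := 2) hK hs
  rw [← hRat]
  have hVpos : 0 < (volume L).toReal := convBody_vol_pos hL
  have hV := sec_vol hL hLs h1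
  have hM := sec_mom hL hLs h1
  obtain ⟨I0, hI0def⟩ : ∃ I0, I0 = ∫ t in (0 : ℝ)..1, secV L t := ⟨_, rfl⟩
  obtain ⟨I2, hI2def⟩ : ∃ I2, I2 = ∫ t in (0 : ℝ)..1, t ^ 2 * secV L t := ⟨_, rfl⟩
  rw [← hI0def] at hV
  rw [← hI2def] at hM
  have hI0 : 0 < I0 := by linarith
  have hsq : (fun t => Real.sqrt (secV L t) ^ 2) = secV L :=
    funext fun t => Real.sq_sqrt ENNReal.toReal_nonneg
  have hsI : s * I0 = I2 := by
    have e1 : covM L 0 0 = s := by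
      rw [hcov]
      simp
    have e2 : covM L 0 0 = (∫ x in L, x 0 ^ 2) / (volume L).toReal := by
      unfold covM
      congr 1
      refine integral_congr_ae (Filter.Eventually.of_forall fun x => ?_)
      simp only [cen_zero hL hLs, sub_zero]
      ring
    rw [e1, hM, hV] at e2
    rw [e2]
    field_simp
  obtain ⟨b, hb, hb0, hb2⟩ := sy_one (sec_concave hL hB) (fun t _ => Real.sqrt_nonneg _)
    (fun t ht => Real.sqrt_le_sqrt (sec_le hL hLs hB ht))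
    (by rw [hsq]; exact sec_int hL 0 1)
  have ha : Real.sqrt (secV L 0) ^ 2 = secV L 0 := Real.sq_sqrt ENNReal.toReal_nonneg
  have hb0' : I0 = secV L 0 * (1 - b + b ^ 2 / 3) := by
    rw [hI0def, ← ha, ← hb0]
    refine intervalIntegral.integral_congr fun t _ => ?_
    exact (congrFun hsq t).symm
  have hb2' : I2 ≤ secV L 0 * (1 / 3 - b / 2 + b ^ 2 / 5) := by
    rw [hI2def, ← ha]
    refine le_trans (le_of_eq ?_) hb2
    refine intervalIntegral.integral_congr fun t _ => ?_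
    change t ^ 2 * secV L t = t ^ 2 * Real.sqrt (secV L t) ^ 2
    exact congrArg (fun z => t ^ 2 * z) (congrFun hsq t).symm
  have hI2 : 0 < I2 := by rw [← hsI]; positivity
  have hvol := sy_vol hL hB
  have hnum := sy_num_q (sec_zero hL hB) hb.1 hb.2 (by rw [← hb0']; linarith)
  have h3 : I2 ^ 3 < 81 / 20000 * I0 ^ 5 := by
    rw [hb0']
    exact lt_of_le_of_lt (pow_le_pow_left₀ hI2.le hb2' 3) hnum
  have hdet := det_covM_eq_Rat hL
  have hdet2 : (covM L).det = s ^ 3 := by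
    rw [hcov, Matrix.det_smul, Matrix.det_one, mul_one, Fintype.card_fin]
  rw [hdet2] at hdet
  refine Quant_final hI0 hV hsI h3 ?_
  rw [hdet]
  norm_num [Nat.factorial]

end Vale.Agent.P254U
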